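import Vale.Agent.P144L.B.Bar
import Vale.Agent.P144E.An1.Hol

/-!
The values of a barrier along the boundary are summable: duality with a sum of Gaussians.
-/

set_option linter.all false

namespace Vale.Agent.P144L.B

open Finset Vale.Agent.P144Z An1

/-- The square. -/
noncomputable abbrev bx (s : ℕ) : Finset (ℤ × ℤ) :=
  Finset.Icc (-(s : ℤ)) s ×ˢ Finset.Icc (-(s : ℤ)) s

theorem card_bx (s : ℕ) : (bx s).card = (2 * s + 1) ^ 2 := by
  rw [card_product, Int.card_Icc, show ((s : ℤ) + 1 - -(s : ℤ)).toNat = 2 * s + 1 by omega, sq]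

/-- The plain Laplacian. -/
def lp (f : ℤ × ℤ → ℝ) (v : ℤ × ℤ) : ℝ := ∑ a, (f (v + st4 a) - f v)

theorem back (x : ℤ × ℤ) (a : Fin 4) : x + st4 a + st4 (a + 2) = x := by
  rw [add_assoc, add_eq_left]
  fin_cases a <;> rfl

variable {θ : ℝ} {pr : ℤ × ℤ → Fin 4 → Prop} {ν : ℂ} {ρ : ℕ} {ω Φ : ℤ × ℤ → ℝ}

open Classical in
theorem green (hs : ∀ v a, pr (v + st4 a) (a + 2) ↔ pr v a) (hΦ : ∀ x, ρ ≤ zd x 0 → Φ x = 0)
    (hω : ∀ x, zd x 0 ≤ ρ → lapG θ pr ω x = 0) : ∑ x ∈ bx ρ, ω x * lapG θ pr Φ x = 0 := by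
  have k : ∀ a, ∑ x ∈ bx ρ, (if pr x a then ω x * Φ (x + st4 a) else 0) =
      ∑ x ∈ bx ρ, (if pr x (a + 2) then Φ x * ω (x + st4 (a + 2)) else 0) := fun a => by
    refine sum_bij_ne_zero (fun x _ _ => x + st4 a) (fun x _ h => B1a1.mem_box.2 ?_)
      (fun _ _ _ _ _ _ h => add_right_cancel h) (fun y _ h => ?_) fun x _ _ => ?_
    · by_contra h'
      simp [hΦ _ (not_le.1 h').le] at h
    · have e : y + st4 (a + 2) + st4 a = y := by
        rw [add_right_comm, back]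
      refine ⟨y + st4 (a + 2), B1a1.mem_box.2 ?_, ?_, e⟩
      · by_contra h'
        have := B1a1.zd_step y (a + 2)
        simp [hΦ y (by omega)] at h
      · rwa [← hs, e, mul_comm]
    · simp only [hs, back, mul_comm]
  have e : ∀ x ∈ bx ρ, ω x * lapG θ pr Φ x = ∑ a, (if pr x a then ω x * Φ (x + st4 a) else 0) -
      ∑ a, (if pr x a then Φ x * ω (x + st4 a) else 0) := fun x hx => by
    have := congrArg (Φ x * ·) (hω x (B1a1.mem_box.1 hx))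
    simp only [lapG, Fin.sum_univ_four] at this ⊢
    split_ifs at this ⊢ <;> linarith
  rw [sum_congr rfl e, sum_sub_distrib, sum_comm, sum_congr rfl fun a _ => k a, sum_comm (s := bx ρ),
    sub_eq_zero]
  exact Equiv.sum_comp (Equiv.addRight (2 : Fin 4))
    fun a => ∑ x ∈ bx ρ, if pr x a then Φ x * ω (x + st4 a) else 0

theorem gs_str {μ : ℝ} (h0 : 0 ≤ μ) (h1 : μ ≤ 1 / 4) {x v : ℤ × ℤ}
    (h : 2 ≤ μ * (((v.1 : ℝ) - x.1) ^ 2 + ((v.2 : ℝ) - x.2) ^ 2)) :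
    2 * μ * gs μ x v ≤ lp (gs μ x) v := by
  have e : lp (gs μ x) v = gs μ x v * (Real.exp (-μ) *
      (Real.exp (2 * μ * (v.1 - x.1)) + Real.exp (-(2 * μ * (v.1 - x.1))) +
        (Real.exp (2 * μ * (v.2 - x.2)) + Real.exp (-(2 * μ * (v.2 - x.2))))) - 4) := by
    have k : ∀ (a : Fin 4) (y : ℝ), -(μ * ((((v + st4 a).1 : ℝ) - x.1) ^ 2 +
        (((v + st4 a).2 : ℝ) - x.2) ^ 2)) =
        -(μ * (((v.1 : ℝ) - x.1) ^ 2 + ((v.2 : ℝ) - x.2) ^ 2)) + (-μ + y) →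
        gs μ x (v + st4 a) = gs μ x v * (Real.exp (-μ) * Real.exp y) := fun a y hy => by
      rw [gs, hy, Real.exp_add, Real.exp_add, gs]
    rw [lp, Fin.sum_univ_four, k 0 (-(2 * μ * (v.1 - x.1))) (by simp [st4]; ring),
      k 1 (-(2 * μ * (v.2 - x.2))) (by simp [st4]; ring),
      k 2 (2 * μ * (v.1 - x.1)) (by simp [st4]; ring),
      k 3 (2 * μ * (v.2 - x.2)) (by simp [st4]; ring)]
    ring
  rw [e, mul_comm]
  refine mul_le_mul_of_nonneg_left (le_sub_iff_add_le.2 ?_) (gs_pos _ _ _).le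
  have h2 := exp_add_exp (2 * μ * (v.1 - x.1))
  have h3 := exp_add_exp (2 * μ * (v.2 - x.2))
  have h4 : 1 - μ ≤ Real.exp (-μ) := by linarith [Real.add_one_le_exp (-μ)]
  have h5 : 4 + 8 * μ ≤ Real.exp (2 * μ * (v.1 - x.1)) + Real.exp (-(2 * μ * (v.1 - x.1))) +
      (Real.exp (2 * μ * (v.2 - x.2)) + Real.exp (-(2 * μ * (v.2 - x.2)))) := by
    nlinarith [mul_le_mul_of_nonneg_left h h0]
  refine le_trans ?_ (mul_le_mul h4 h5 (by positivity) (Real.exp_pos _).le)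
  nlinarith

/-- The truncated Gaussian. -/
noncomputable def psi (μ : ℝ) (q v : ℤ × ℤ) : ℝ := max (gs μ q v - Real.exp (-500000)) 0

theorem psi_lp {μ : ℝ} (h0 : 0 ≤ μ) (h1 : μ ≤ 1 / 4) {q v : ℤ × ℤ}
    (h : 2 ≤ μ * (((v.1 : ℝ) - q.1) ^ 2 + ((v.2 : ℝ) - q.2) ^ 2)) : 0 ≤ lp (psi μ q) v ∧
      (Real.exp (-500000) ≤ gs μ q v → 2 * μ * gs μ q v ≤ lp (psi μ q) v) := by
  have k : Real.exp (-500000) ≤ gs μ q v → 2 * μ * gs μ q v ≤ lp (psi μ q) v := fun h' =>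
    (gs_str h0 h1 h).trans (sum_le_sum fun a _ => by
      rw [psi, psi, max_eq_left (sub_nonneg.2 h')]
      linarith [le_max_left (gs μ q (v + st4 a) - Real.exp (-500000)) 0])
  refine ⟨?_, k⟩
  rcases le_total (Real.exp (-500000)) (gs μ q v) with h' | h'
  · exact le_trans (mul_nonneg (by linarith) (gs_pos _ _ _).le) (k h')
  · refine sum_nonneg fun a _ => ?_
    rw [psi, psi, max_eq_right (sub_nonpos.2 h'), sub_zero]
    exact le_max_right _ _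

theorem near (hν : ‖ν‖ = 1) (t : ℕ) : ∃ n : ℤ × ℤ, zd n 0 ≤ t + 1 ∧ ∀ d : ℤ × ℤ,
    t - 1 - 2 * zd d 0 ≤ ht ν (n + d) ∧ len (n + d) ≤ t + 1 + 2 * zd d 0 := by
  have a1 := abs_sub_round (t * ν.re)
  have a2 := abs_sub_round (t * ν.im)
  obtain ⟨n, n1, n2⟩ : ∃ n : ℤ × ℤ, |t * ν.re - n.1| ≤ 1 / 2 ∧ |t * ν.im - n.2| ≤ 1 / 2 :=
    ⟨(_, _), a1, a2⟩
  have b1 : ‖em n‖ ≤ t + 1 := by
    have c1 := norm_sub_norm_le (em n) ((t : ℝ) * ν)
    have c2 := Complex.norm_le_abs_re_add_abs_im (((t : ℝ) : ℂ) * ν - em n)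
    rw [norm_mul, hν, mul_one, Complex.norm_of_nonneg (Nat.cast_nonneg t), norm_sub_rev] at c1
    simp only [Complex.sub_re, Complex.sub_im, Complex.re_ofReal_mul, Complex.im_ofReal_mul, em] at c2
    simp only [em] at c1 ⊢
    linarith
  have b2 : (t : ℝ) - 1 ≤ ht ν n := by
    have c0 := B1b.sq_one hν
    have c1 : |(t * ν.re - n.1) * ν.re| ≤ 1 / 2 * 1 := by
      rw [abs_mul]
      exact mul_le_mul n1 (hν ▸ Complex.abs_re_le_norm ν) (abs_nonneg _) (by norm_num)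
    have c2 : |(t * ν.im - n.2) * ν.im| ≤ 1 / 2 * 1 := by
      rw [abs_mul]
      exact mul_le_mul n2 (hν ▸ Complex.abs_im_le_norm ν) (abs_nonneg _) (by norm_num)
    have c3 : (t : ℝ) * (ν.re ^ 2 + ν.im ^ 2) = t := by rw [c0, mul_one]
    unfold ht
    linarith [(abs_le.1 c1).2, (abs_le.1 c2).2]
  refine ⟨n, by exact_mod_cast (le_em n).trans b1, fun d => ⟨?_, ?_⟩⟩
  · rw [B1b.ht_add]
    linarith [(abs_le.1 (B1b.abs_ht_le hν d)).1]
  · rw [len_em, em_add]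
    linarith [norm_add_le (em n) (em d), em_le d]

theorem alt (t0 : 3 / 4 ≤ θ) (H : IsBar θ pr ν ρ ω) {s : ℕ} (hs : 1 ≤ s) {μ : ℝ} (μ0 : 0 ≤ μ)
    (hμ : μ * (s : ℝ) ^ 2 = 2 / 9) {n y v : ℤ × ℤ}
    (n2 : ∀ d : ℤ × ℤ, (500 * s : ℕ) - 1 - 2 * zd d 0 ≤ ht ν (n + d) ∧
      len (n + d) ≤ (500 * s : ℕ) + 1 + 2 * zd d 0) (hB : Bc pr ν y) (hv : zd v 0 ≤ ρ) :
    ω v = 0 ∨ 2 ≤ μ * (((v.1 : ℝ) - (y - n).1) ^ 2 + ((v.2 : ℝ) - (y - n).2) ^ 2) := by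
  have s1 : (1 : ℝ) ≤ s := by exact_mod_cast hs
  rcases le_total (zd v (y - n)) (3 * s) with h | h
  · have a1 : zd (y - n - v) 0 ≤ 3 * s := by
      simp only [zd, Prod.fst_sub, Prod.snd_sub, Prod.fst_zero, Prod.snd_zero] at h ⊢
      omega
    have a2 : (zd (y - n - v) 0 : ℝ) ≤ 3 * s := by exact_mod_cast a1
    obtain ⟨a3, a4⟩ := n2 (y - n - v)
    have a5 : Dp ν (n + (y - n - v)) := by
      push_cast at a3 a4
      unfold Dp
      linarith [mul_le_mul_of_nonneg_right rt (GeoA.len_nonneg (n + (y - n - v)))]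
    have a6 := H.harm v hv
    have a7 := fun a => hB.lo _ a a5
    rw [show y - (n + (y - n - v)) = v by abel] at a7
    rw [lap_none a7, neg_eq_zero] at a6
    exact Or.inl ((mul_eq_zero.1 a6).resolve_left (by linarith))
  · refine Or.inr (le_trans (le_of_eq ?_) (mul_le_mul_of_nonneg_left (dist_ge h) μ0))
    push_cast
    linarith

theorem zz {s : ℕ} {n y x d : ℤ × ℤ} (hs : 1 ≤ s) (hρ : 10000 * s ≤ ρ) (n1 : zd n 0 ≤ 500 * s + 1)
    (hy : 2 * zd y 0 ≤ ρ) (hx : zd x y ≤ s) (hd : zd d 0 ≤ s) : zd (y + n + d) 0 ≤ ρ ∧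
      zd (y + n + d) (y - n) ≤ 1003 * s ∧ zd (y + d - x) 0 ≤ 2 * s := by
  have a1 := B1a1.zd_add_le (y + n) d
  have a2 := B1a1.zd_add_le y n
  have a3 := B1a1.zd_add_le (n + n) d
  have a4 := B1a1.zd_add_le n n
  have a5 : zd (y + n + d) (y - n) = zd (n + n + d) 0 := by
    simp only [zd, Prod.fst_sub, Prod.snd_sub, Prod.fst_add, Prod.snd_add, Prod.fst_zero,
      Prod.snd_zero]
    congr 2 <;> ring
  refine ⟨by omega, by omega, ?_⟩
  simp only [zd, Prod.fst_sub, Prod.snd_sub, Prod.fst_add, Prod.snd_add, Prod.fst_zero,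
    Prod.snd_zero] at hx hd ⊢
  omega

theorem gs_low {s : ℕ} {μ : ℝ} (μ0 : 0 ≤ μ) (hμ : μ * (s : ℝ) ^ 2 = 2 / 9) {q v : ℤ × ℤ}
    (h : zd v q ≤ 1003 * s) : Real.exp (-450000) ≤ gs μ q v := by
  refine Real.exp_le_exp.2 (neg_le_neg ((mul_le_mul_of_nonneg_left (dist_le h) μ0).trans ?_))
  push_cast
  linarith

theorem one (t0 : 3 / 4 ≤ θ) (H : IsBar θ pr ν ρ ω) {s : ℕ} (hs : 1 ≤ s)
    (hρ : 10000 * s ≤ ρ) {μ : ℝ} (hμ : μ * (s : ℝ) ^ 2 = 2 / 9) {n y x : ℤ × ℤ}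
    (n1 : zd n 0 ≤ 500 * s + 1) (n2 : ∀ d : ℤ × ℤ, (500 * s : ℕ) - 1 - 2 * zd d 0 ≤ ht ν (n + d) ∧
      len (n + d) ≤ (500 * s : ℕ) + 1 + 2 * zd d 0) (hB : Bc pr ν y) (hy : 2 * zd y 0 ≤ ρ)
    (hx : zd x y ≤ s) :
    Real.exp (-450000) * ω x ≤ ∑ v ∈ bx ρ, ω v * lp (psi μ (y - n)) v := by
  have s1 : (1 : ℝ) ≤ s := by exact_mod_cast hs
  have μ0 : 0 ≤ μ := by nlinarith
  have μ1 : μ ≤ 1 / 4 := by nlinarith [mul_le_mul_of_nonneg_left (one_le_pow₀ s1 (n := 2)) μ0]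
  have m1 : 1 ≤ (2 * (s : ℝ) + 1) ^ 2 * (2 * μ) := by nlinarith
  have pos : ∀ v ∈ bx ρ, 0 ≤ ω v * lp (psi μ (y - n)) v := fun v hv => by
    rcases alt t0 H hs μ0 hμ n2 hB (B1a1.mem_box.1 hv) with h | h
    · rw [h, zero_mul]
    · exact mul_nonneg (H.rng v).1 (psi_lp μ0 μ1 h).1
  have gl := fun d (hd : d ∈ bx s) => gs_low μ0 hμ (zz hs hρ n1 hy hx (B1a1.mem_box.1 hd)).2.1
  have E0 := Real.exp_pos (-450000)
  have E1 : Real.exp (-500000) ≤ Real.exp (-450000) := Real.exp_le_exp.2 (by norm_num)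
  generalize Real.exp (-450000) = E at *
  have low : ∀ d ∈ bx s, 2 * μ * E * ω x ≤
      ω (y + n + d) * lp (psi μ (y - n)) (y + n + d) := fun d hd => by
    obtain ⟨z1, -, z3⟩ := zz hs hρ n1 hy hx (B1a1.mem_box.1 hd)
    have a1 : ω x ≤ ω (y + n + d) := by
      obtain ⟨a3, a4⟩ := n2 (y + d - x)
      have a2 : (zd (y + d - x) 0 : ℝ) ≤ 2 * s := by exact_mod_cast z3
      push_cast at a3 a4
      exact (H.mono x (n + (y + d - x)) (by linarith)).trans_eq (congrArg ω (by abel))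
    rcases alt t0 H hs μ0 hμ n2 hB z1 with h | h
    · rw [h, le_antisymm (a1.trans_eq h) (H.rng x).1, mul_zero, zero_mul]
    · have a3 := (psi_lp μ0 μ1 h).2 (E1.trans (gl d hd))
      rw [mul_comm]
      exact mul_le_mul a1 ((mul_le_mul_of_nonneg_left (gl d hd) (by linarith)).trans a3)
        (by positivity) (H.rng _).1
  refine le_trans ?_ (sum_le_sum_of_subset_of_nonneg
    (s := (bx s).map (Equiv.addLeft (y + n)).toEmbedding) (fun v hv => ?_) fun v hv _ => pos v hv)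
  · rw [sum_map]
    refine le_trans ?_ (card_nsmul_le_sum _ _ _ low)
    rw [card_bx, nsmul_eq_mul]
    push_cast
    linarith [mul_le_mul_of_nonneg_right m1 (mul_nonneg E0.le (H.rng x).1)]
  · obtain ⟨d, hd, rfl⟩ := mem_map.1 hv
    exact B1a1.mem_box.2 (zz hs hρ n1 hy hx (B1a1.mem_box.1 hd)).1

theorem muz {Z : Finset (ℤ × ℤ)} {s m : ℕ} (hs : 1 ≤ s) (h : MuZ Z s m) (n : ℕ) :
    MuZ Z (n * s) (m * (2 * n + 1) ^ 2) := fun x => by
  have s0 : (0 : ℤ) < s := by exact_mod_cast hs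
  rw [← card_bx]
  refine card_le_mul_card_image_of_maps_to (f := fun y => ((y.1 - x.1) / s, (y.2 - x.2) / s))
    (fun y hy => ?_) m fun b _ => le_trans (card_le_card fun y hy => ?_)
      (h (x.1 + s * b.1, x.2 + s * b.2))
  · have a1 : zd (y - x) 0 ≤ n * s := by simpa [zd] using (mem_filter.1 hy).2
    obtain ⟨⟨a2, a3⟩, a4, a5⟩ := B1a1.zd_zero_le.1 a1
    push_cast at a2 a3 a4 a5
    simp only [mem_product, mem_Icc, Int.le_ediv_iff_mul_le s0, neg_mul]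
    exact ⟨⟨a2, Int.ediv_le_of_le_mul s0 a3⟩, a4, Int.ediv_le_of_le_mul s0 a5⟩
  · obtain ⟨a1, rfl⟩ := mem_filter.1 hy
    refine mem_filter.2 ⟨(mem_filter.1 a1).1, ?_⟩
    have b1 := Int.emod_add_mul_ediv (y.1 - x.1) s
    have b2 := Int.emod_add_mul_ediv (y.2 - x.2) s
    have b3 := Int.emod_nonneg (y.1 - x.1) s0.ne'
    have b4 := Int.emod_nonneg (y.2 - x.2) s0.ne'
    have b5 := Int.emod_lt_of_pos (y.1 - x.1) s0
    have b6 := Int.emod_lt_of_pos (y.2 - x.2) s0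
    simp only [zd]
    generalize (s : ℤ) * ((y.1 - x.1) / s) = p at *
    generalize (s : ℤ) * ((y.2 - x.2) / s) = q at *
    generalize (y.1 - x.1) % s = p' at *
    generalize (y.2 - x.2) % s = q' at *
    omega

/-- The cut-off. -/
def et (ρ w : ℕ) (x : ℤ × ℤ) : ℤ := max 0 (min w (ρ - zd x 0))

theorem et_lip (ρ w : ℕ) (x : ℤ × ℤ) (a : Fin 4) :
    et ρ w x ≤ et ρ w (x + st4 a) + 1 ∧ et ρ w (x + st4 a) ≤ et ρ w x + 1 := by
  have h1 := B1a1.zd_step x a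
  have h2 := B1a1.zd_step (x + st4 a) (a + 2)
  rw [back] at h2
  unfold et
  omega

theorem et_lap (ρ w : ℕ) (x : ℤ × ℤ) : ∑ a, (et ρ w (x + st4 a) ^ 2 - et ρ w x ^ 2) ≤ 4 := by
  have p : ∀ v, 0 ≤ et ρ w v := fun v => le_max_left _ _
  have l := et_lip ρ w x
  have q : ∀ a, (et ρ w (x + st4 a) - et ρ w x) ^ 2 ≤ 1 := fun a => by nlinarith [l a]
  have c : et ρ w x * (et ρ w (x + st4 0) + et ρ w (x + st4 2) + (et ρ w (x + st4 1) +
      et ρ w (x + st4 3)) - 4 * et ρ w x) ≤ 0 := by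
    rcases (p x).eq_or_lt with h | h
    · rw [← h, zero_mul]
    · refine mul_nonpos_of_nonneg_of_nonpos h.le ?_
      have c1 : 2 * zd x 0 ≤ zd (x + st4 0) 0 + zd (x + st4 2) 0 := by
        simp only [zd, show st4 0 = (1, 0) from rfl, show st4 2 = (-1, 0) from rfl, Prod.fst_add,
          Prod.snd_add, Prod.fst_zero, Prod.snd_zero]
        omega
      have c2 : 2 * zd x 0 ≤ zd (x + st4 1) 0 + zd (x + st4 3) 0 := by
        simp only [zd, show st4 1 = (0, 1) from rfl, show st4 3 = (0, -1) from rfl, Prod.fst_add,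
          Prod.snd_add, Prod.fst_zero, Prod.snd_zero]
        omega
      have d := B1a1.zd_step x
      have e1 : et ρ w (x + st4 0) + et ρ w (x + st4 2) ≤ 2 * et ρ w x := by
        have := d 0
        have := d 2
        unfold et at h ⊢
        omega
      have e2 : et ρ w (x + st4 1) + et ρ w (x + st4 3) ≤ 2 * et ρ w x := by
        have := d 1
        have := d 3
        unfold et at h ⊢
        omega
      linarith
  rw [Fin.sum_univ_four]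
  nlinarith [q 0, q 1, q 2, q 3]

theorem key (t0 : 3 / 4 ≤ θ) (t1 : θ ≤ 1) {Ψ : ℤ × ℤ → ℝ} {w : ℕ} {G : ℝ}
    (h1 : ∀ v, 0 ≤ Ψ v ∧ Ψ v ≤ G) (h2 : ∀ v, Ψ v = 0 ∨ zd v 0 + w ≤ ρ) (x : ℤ × ℤ) :
    (w : ℝ) ^ 2 * lp Ψ x - 16 * G ≤
      lapG θ pr (fun v => (w : ℝ) ^ 2 * Ψ v - 2 * G * (et ρ w v : ℝ) ^ 2) x := by
  classical
  have G0 : 0 ≤ G := (h1 x).1.trans (h1 x).2
  have a1 : ∑ a, ((et ρ w (x + st4 a) : ℝ) ^ 2 - (et ρ w x : ℝ) ^ 2) ≤ 4 := by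
    exact_mod_cast et_lap ρ w x
  have a2 : ∑ a, ((w : ℝ) ^ 2 * (Ψ (x + st4 a) - Ψ x) -
      2 * G * ((et ρ w (x + st4 a) : ℝ) ^ 2 - (et ρ w x : ℝ) ^ 2) - 2 * G) ≤
      lapG θ pr (fun v => (w : ℝ) ^ 2 * Ψ v - 2 * G * (et ρ w v : ℝ) ^ 2) x := by
    refine sum_le_sum fun a _ => ?_
    split_ifs
    · linarith
    have b0 : (0 : ℝ) ≤ et ρ w x := Int.cast_nonneg (le_max_left _ _ : 0 ≤ et ρ w x)
    have b1 : 0 ≤ (1 - θ) * ((w : ℝ) ^ 2 * Ψ x) :=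
      mul_nonneg (by linarith) (mul_nonneg (sq_nonneg _) (h1 x).1)
    have b2 : (1 - θ) * (G * (et ρ w x : ℝ) ^ 2) ≤ 1 / 4 * (G * (et ρ w x : ℝ) ^ 2) :=
      mul_le_mul_of_nonneg_right (by linarith) (by positivity)
    rcases h2 (x + st4 a) with h | h
    · have b3 : (et ρ w x : ℝ) ≤ et ρ w (x + st4 a) + 1 := by exact_mod_cast (et_lip ρ w x a).1
      have b4 : (et ρ w x : ℝ) ^ 2 ≤ 4 * (et ρ w (x + st4 a) : ℝ) ^ 2 + 4 := by
        nlinarith [pow_le_pow_left₀ b0 b3 2, sq_nonneg ((et ρ w (x + st4 a) : ℝ) - 1),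
          sq_nonneg (et ρ w (x + st4 a) : ℝ)]
      rw [h]
      nlinarith [mul_le_mul_of_nonneg_left b4 G0]
    · have b3 : (et ρ w (x + st4 a) : ℝ) = w := by
        exact_mod_cast (by unfold et; omega : et ρ w (x + st4 a) = w)
      have b4 : (et ρ w x : ℝ) ≤ w := by exact_mod_cast (by unfold et; omega : et ρ w x ≤ w)
      rw [b3]
      nlinarith [mul_le_mul_of_nonneg_left (pow_le_pow_left₀ b0 b4 2) G0,
        mul_le_mul_of_nonneg_left (h1 (x + st4 a)).2 (sq_nonneg (w : ℝ)),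
        mul_nonneg G0 (sq_nonneg (w : ℝ))]
  refine le_trans ?_ a2
  have a3 := mul_le_mul_of_nonneg_left a1 G0
  simp only [lp, Fin.sum_univ_four] at a3 ⊢
  linarith

theorem carL : CarL := by
  have E0 := Real.exp_pos (-450000)
  obtain ⟨C, C1, C2⟩ : ∃ C : ℕ, 10000 ≤ C ∧ 4096 * 4003 ^ 2 / Real.exp (-450000) ≤ C :=
    ⟨max 10000 _, le_max_left _ _, (Nat.le_ceil _).trans (Nat.cast_le.2 (le_max_right _ _))⟩
  refine ⟨C, fun θ t0 t1 pr ν ρ ω hM H s m Z f hs hρ hZ hm => ?_⟩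
  replace hρ : 10000 * s ≤ ρ := (Nat.mul_le_mul_right s C1).trans hρ
  have s0 : (0 : ℝ) < s := by exact_mod_cast hs
  obtain ⟨μ, hμ⟩ : ∃ μ : ℝ, μ * (s : ℝ) ^ 2 = 2 / 9 := ⟨_, div_mul_cancel₀ _ (by positivity)⟩
  have μ0 : 0 ≤ μ := by nlinarith [pow_pos s0 2]
  obtain ⟨n, n1, n2⟩ := near hM.nrm (500 * s)
  have sup : ∀ y v, psi μ (y - n) v ≠ 0 → zd y v ≤ 2001 * s := fun y v h => by
    by_contra h'
    have a1 : 1500 * s ≤ zd v (y - n) := by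
      simp only [zd, Prod.fst_sub, Prod.snd_sub, Prod.fst_zero, Prod.snd_zero] at n1 h' ⊢
      omega
    refine h (max_eq_right (sub_nonpos.2 (Real.exp_le_exp.2 (neg_le_neg
      (le_trans (le_of_eq ?_) (mul_le_mul_of_nonneg_left (dist_ge a1) μ0))))))
    push_cast
    linarith
  have h1 : ∀ v, 0 ≤ ∑ y ∈ Z, psi μ (y - n) v ∧ ∑ y ∈ Z, psi μ (y - n) v ≤ m * 4003 ^ 2 := fun v => by
    refine ⟨sum_nonneg fun y _ => le_max_right _ _, ?_⟩
    rw [← sum_filter_of_ne fun y _ => sup y v]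
    refine (sum_le_card_nsmul _ _ 1 fun y _ => max_le ?_ zero_le_one).trans ?_
    · linarith [gs_le_one μ0 (y - n) v, Real.exp_pos (-500000)]
    · rw [nsmul_eq_mul, mul_one]
      exact_mod_cast muz hs hm 2001 v
  have h2 : ∀ v, ∑ y ∈ Z, psi μ (y - n) v = 0 ∨ zd v 0 + ρ / 4 ≤ ρ := fun v => by
    refine or_iff_not_imp_left.2 fun h => ?_
    obtain ⟨y, hy, h'⟩ := exists_ne_zero_of_sum_ne_zero h
    have a1 := sup y v h'
    have a2 := (hZ y hy).2.1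
    simp only [zd, Prod.fst_zero, Prod.snd_zero] at a1 a2 ⊢
    omega
  have g := green (Φ := fun v => ((ρ / 4 : ℕ) : ℝ) ^ 2 * ∑ y ∈ Z, psi μ (y - n) v -
    2 * (m * 4003 ^ 2) * (et ρ (ρ / 4) v : ℝ) ^ 2) hM.symm (fun v hv => by
      rw [(h2 v).resolve_right (by omega), show et ρ (ρ / 4) v = 0 by unfold et; omega]
      simp) H.harm
  have a1 := (sum_le_sum fun x (_ : x ∈ bx ρ) => mul_le_mul_of_nonneg_left
    (key (pr := pr) t0 t1 h1 h2 x) (H.rng x).1).trans_eq g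
  have a2 : ∑ x ∈ bx ρ, ω x ≤ (2 * ρ + 1) ^ 2 := by
    refine (sum_le_card_nsmul _ _ 1 fun x _ => (H.rng x).2).trans ?_
    rw [nsmul_eq_mul, mul_one, card_bx]
    push_cast
    rfl
  have a3 : Real.exp (-450000) * ∑ y ∈ Z, f y ≤
      ∑ x ∈ bx ρ, ω x * lp (fun v => ∑ y ∈ Z, psi μ (y - n) v) x := by
    have e : ∀ x, ω x * lp (fun v => ∑ y ∈ Z, psi μ (y - n) v) x =
        ∑ y ∈ Z, ω x * lp (psi μ (y - n)) x := fun x => by
      simp only [lp, ← mul_sum, ← sum_sub_distrib]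
      rw [sum_comm]
    rw [mul_sum, sum_congr rfl fun x _ => e x, sum_comm]
    refine sum_le_sum fun y hy => ?_
    obtain ⟨b1, b2, x, b3, b4⟩ := hZ y hy
    exact (mul_le_mul_of_nonneg_left b4 E0.le).trans (one t0 H hs hρ hμ n1 n2 b1 b2 b3)
  simp only [mul_sub, sum_sub_distrib, mul_left_comm (ω _), ← mul_sum, ← sum_mul] at a1
  have w0 : (0 : ℝ) < (ρ / 4 : ℕ) := by exact_mod_cast (by omega : 0 < ρ / 4)
  have w1 : (2 * ρ + 1 : ℝ) ≤ 16 * (ρ / 4 : ℕ) := by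
    exact_mod_cast (by omega : 2 * ρ + 1 ≤ 16 * (ρ / 4))
  have w2 := a2.trans (pow_le_pow_left₀ (by positivity) w1 2)
  have a4 : Real.exp (-450000) * ∑ y ∈ Z, f y ≤ 4096 * 4003 ^ 2 * m := by
    refine a3.trans (le_of_mul_le_mul_left ?_ (pow_pos w0 2))
    nlinarith [mul_le_mul_of_nonneg_left w2 (Nat.cast_nonneg (α := ℝ) m)]
  rw [div_le_iff₀ E0] at C2
  refine le_of_mul_le_mul_left (a4.trans ?_) E0
  nlinarith [mul_le_mul_of_nonneg_right C2 (Nat.cast_nonneg (α := ℝ) m)]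

end Vale.Agent.P144L.B
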