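import Vale.Agent.P144L.Defs

/-!
Monotone barriers exist: the least fixed point of the averaging operator in a cone.
-/

set_option linter.all false

namespace Vale.Agent.P144L.B

open Finset Vale.Agent.P144Z

theorem tarski {X : Type} (Φ : (X → ℝ) → X → ℝ)
    (hm : ∀ f g, (∀ x, f x ≤ g x) → ∀ x, Φ f x ≤ Φ g x)
    (h0 : ∀ f, (∀ x, 0 ≤ f x ∧ f x ≤ 1) → ∀ x, 0 ≤ Φ f x ∧ Φ f x ≤ 1) :
    ∃ ω : X → ℝ, (∀ x, 0 ≤ ω x ∧ ω x ≤ 1) ∧ (∀ x, Φ ω x = ω x) ∧
      ∀ g, (∀ x, 0 ≤ g x ∧ g x ≤ 1) → (∀ x, Φ g x ≤ g x) → ∀ x, ω x ≤ g x := by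
  haveI : Fact ((0 : ℝ) ≤ 1) := ⟨zero_le_one⟩
  let F : (X → Set.Icc (0 : ℝ) 1) →o (X → Set.Icc (0 : ℝ) 1) :=
    ⟨fun f x => ⟨Φ (fun y => f y) x, h0 _ (fun y => (f y).2) x⟩,
      fun f g h x => hm _ _ (fun y => h y) x⟩
  refine ⟨fun x => F.lfp x, fun x => (F.lfp x).2,
    fun x => congrArg Subtype.val (congrFun F.map_lfp x), fun g hg h x => ?_⟩
  exact F.lfp_le (a := fun y => ⟨g y, hg y⟩) (fun y => h y) x

/-- A lattice vector as a complex number. -/
def em (v : ℤ × ℤ) : ℂ := ⟨v.1, v.2⟩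

theorem len_em (v : ℤ × ℤ) : len v = ‖em v‖ := by
  rw [Complex.norm_eq_sqrt_sq_add_sq]; rfl

theorem em_add (u v : ℤ × ℤ) : em (u + v) = em u + em v := by
  apply Complex.ext <;> simp [em]

theorem em_neg (v : ℤ × ℤ) : em (-v) = -em v := by
  apply Complex.ext <;> simp [em]

theorem em_le (v : ℤ × ℤ) : ‖em v‖ ≤ 2 * zd v 0 := by
  have h := B1b.abs_le_zd v
  rw [← len_em]
  linarith [GeoA.len_le v, h.1, h.2]

theorem le_em (v : ℤ × ℤ) : (zd v 0 : ℝ) ≤ ‖em v‖ := by
  rw [← len_em]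
  exact Real.le_sqrt_of_sq_le (B1b.zd_sq_le v)

theorem rt : √2 / 2 ≤ 3 / 4 := by
  have : √2 ≤ (3 / 2 : ℝ) := Real.sqrt_le_iff.2 ⟨by norm_num, by norm_num⟩
  linarith

open Classical in
/-- The lazy average. -/
noncomputable def avg (θ : ℝ) (pr : ℤ × ℤ → Fin 4 → Prop) (f : ℤ × ℤ → ℝ) (v : ℤ × ℤ) : ℝ :=
  (∑ a, if pr v a then f (v + st4 a) else (1 - θ) * f v) / 4

theorem lapG_eq (θ : ℝ) (pr : ℤ × ℤ → Fin 4 → Prop) (f : ℤ × ℤ → ℝ) (v : ℤ × ℤ) :
    lapG θ pr f v = 4 * (avg θ pr f v - f v) := by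
  simp only [lapG, avg, Fin.sum_univ_four]
  split_ifs <;> ring

/-- The cone. -/
def Tc (ν : ℂ) (ρ : ℕ) (x : ℤ × ℤ) : Prop :=
  9 / 10 * ‖((50 * ρ : ℝ) : ℂ) * ν - em x‖ < 50 * ρ - ht ν x

variable {θ : ℝ} {pr : ℤ × ℤ → Fin 4 → Prop} {ν : ℂ} {ρ : ℕ} {x c : ℤ × ℤ}

theorem Tc.down (h : Tc ν ρ (x + c)) (hc : 9 / 10 * len c ≤ ht ν c) : Tc ν ρ x := by
  unfold Tc at h ⊢
  rw [B1b.ht_add, em_add, ← sub_sub] at h
  rw [len_em] at hc
  have := norm_add_le (((50 * ρ : ℝ) : ℂ) * ν - em x - em c) (em c)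
  rw [sub_add_cancel] at this
  linarith

theorem norm_top (hν : ‖ν‖ = 1) (ρ : ℕ) : ‖((50 * ρ : ℝ) : ℂ) * ν‖ = 50 * ρ := by
  rw [norm_mul, hν, mul_one, Complex.norm_of_nonneg (by positivity)]

theorem tc_in (hν : ‖ν‖ = 1) (h0 : 1 ≤ ρ) (hx : zd x 0 ≤ ρ) : Tc ν ρ x := by
  have a1 := norm_sub_le (((50 * ρ : ℝ) : ℂ) * ν) (em x)
  have a2 := em_le x
  have a3 := (abs_le.1 (B1b.abs_ht_le hν x)).2
  have a4 : (zd x 0 : ℝ) ≤ ρ := by exact_mod_cast hx
  have a5 : (1 : ℝ) ≤ ρ := by exact_mod_cast h0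
  rw [norm_top hν] at a1
  unfold Tc
  linarith

theorem tc_far (hν : ‖ν‖ = 1) (h0 : 100 ≤ ρ) (hx : 900 * ρ ≤ zd x 0) (h : Tc ν ρ x) :
    Dp ν (-x) := by
  have a1 := norm_sub_norm_le (em x) (((50 * ρ : ℝ) : ℂ) * ν)
  have a2 := le_em x
  have a4 : (900 : ℝ) * ρ ≤ zd x 0 := by exact_mod_cast hx
  have a5 : (100 : ℝ) ≤ ρ := by exact_mod_cast h0
  have a6 : ht ν (-x) = -ht ν x := by simp only [ht, Prod.fst_neg, Prod.snd_neg, Int.cast_neg]; ring
  rw [norm_top hν, norm_sub_rev] at a1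
  unfold Tc at h
  rw [Dp, len_em, em_neg, norm_neg, a6]
  linarith [mul_le_mul_of_nonneg_right rt (norm_nonneg (em x))]

theorem cn_of (hc : 9 / 10 * len c ≤ ht ν c) : Cn ν c :=
  le_trans (mul_le_mul_of_nonneg_right (rt.trans (by norm_num)) (GeoA.len_nonneg c)) hc

/-- A site without edges. -/
theorem lap_none {f : ℤ × ℤ → ℝ} (h : ∀ a, ¬ pr x a) : lapG θ pr f x = -(4 * θ * f x) := by
  simp only [lapG, h, if_false, Fin.sum_univ_four]
  ring

theorem barL : BarL := by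
  classical
  intro θ t0 t1 pr ν hM hB ρ hρ
  have hν := hM.nrm
  obtain ⟨ω, w1, w2, w3⟩ := tarski (fun f x => if Tc ν ρ x then avg θ pr f x else 1)
    (fun f g h x => by
      split_ifs
      · refine div_le_div_of_nonneg_right (sum_le_sum fun a _ => ?_) (by norm_num)
        split_ifs
        · exact h _
        · exact mul_le_mul_of_nonneg_left (h x) (by linarith)
      · exact le_rfl)
    (fun f h x => by
      split_ifs
      · have k : ∀ a, 0 ≤ (if pr x a then f (x + st4 a) else (1 - θ) * f x) ∧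
            (if pr x a then f (x + st4 a) else (1 - θ) * f x) ≤ 1 := fun a => by
          split_ifs
          · exact h _
          · constructor <;> nlinarith [h x]
        simp only [avg, Fin.sum_univ_four]
        constructor <;> linarith [k 0, k 1, k 2, k 3]
      · exact ⟨zero_le_one, le_rfl⟩)
  have wT : ∀ x, Tc ν ρ x → avg θ pr ω x = ω x := fun x h => by simpa only [if_pos h] using w2 x
  have wN : ∀ x, ¬ Tc ν ρ x → ω x = 1 := fun x h => by simpa only [if_neg h] using (w2 x).symm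
  have wH : ∀ x, Tc ν ρ x → lapG θ pr ω x = 0 := fun x h => by rw [lapG_eq, wT x h]; ring
  have nb : ∀ x a, pr x a → (1 - θ) * ω x ≤ ω (x + st4 a) := fun x a h => by
    have k0 : (1 - θ) * ω x ≤ ω x / 4 := by nlinarith [w1 x]
    by_cases hT : Tc ν ρ (x + st4 a)
    · have k1 := single_le_sum (f := fun b => if pr (x + st4 a) b then ω (x + st4 a + st4 b)
        else (1 - θ) * ω (x + st4 a)) (fun b _ => by
          split_ifs
          · exact (w1 _).1
          · exact mul_nonneg (by linarith) (w1 _).1) (mem_univ (a + 2))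
      have e : x + st4 a + st4 (a + 2) = x := by
        rw [add_assoc, add_eq_left]
        fin_cases a <;> rfl
      rw [if_pos ((hM.symm x a).2 h), e] at k1
      rw [← wT _ hT, avg]
      linarith
    · rw [wN _ hT]
      linarith [w1 x]
  refine ⟨ω, w1, fun x c hc => w3 (fun v => ω (v + c)) (fun v => w1 _) (fun v => ?_) x,
    fun x hx => wH x (tc_in hν (by omega) hx), fun f S hS h1 h2 x hx => ?_⟩
  · by_cases hT : Tc ν ρ (v + c)
    · rw [if_pos (hT.down hc), ← wT _ hT]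
      refine div_le_div_of_nonneg_right (sum_le_sum fun a _ => ?_) (by norm_num)
      by_cases h : pr v a
      · rw [if_pos h, if_pos (hM.up v a c (cn_of hc) h), add_right_comm]
      · rw [if_neg h]
        split_ifs with h'
        · exact nb _ a h'
        · exact le_rfl
    · rw [wN _ hT]
      split_ifs
      · have k : ∀ a, (if pr v a then ω (v + st4 a + c) else (1 - θ) * ω (v + c)) ≤ 1 := fun a => by
          split_ifs
          · exact (w1 _).2
          · nlinarith [w1 (v + c)]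
        simp only [avg, Fin.sum_univ_four]
        linarith [k 0, k 1, k 2, k 3]
      · exact le_rfl
  · have off : ∀ v, zd v 0 ≤ 900 * ρ → 0 < f v - S * ω v → Tc ν ρ v ∧ 0 < f v := fun v hv h => by
      refine ⟨by_contra fun hT => ?_, by linarith [mul_nonneg hS (w1 v).1]⟩
      rw [wN v hT] at h
      linarith [h1 v (by omega)]
    refine sub_nonpos.1 (maxp_box (900 * ρ) (fun v => f v - S * ω v) (fun v hv => ?_)
      (fun v hv h hm => ?_) x (by omega))
    · refine not_lt.1 fun h => ?_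
      obtain ⟨k1, k2⟩ := off v hv.le h
      have k3 := h2 v (by omega) k2
      rw [lap_none fun a => by simpa using hB.lo _ a (tc_far hν hρ hv.ge k1)] at k3
      nlinarith
    · obtain ⟨k1, k2⟩ := off v (by omega) h
      have k3 := h2 v (by omega) k2
      have k4 := wH v k1
      have k5 := B1a1.four_zero (g := fun a => if pr v a then
          f (v + st4 a) - S * ω (v + st4 a) - (f v - S * ω v) else -θ * (f v - S * ω v))
        (fun a => by
          split_ifs
          · linarith [hm a]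
          · nlinarith) (by
          refine le_of_le_of_eq (by rw [k4]; linarith : 0 ≤ lapG θ pr f v - S * lapG θ pr ω v) ?_
          simp only [lapG, Fin.sum_univ_four]
          split_ifs <;> ring) 0
      split_ifs at k5
      · linarith
      · nlinarith

end Vale.Agent.P144L.B
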